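import Crest.Agent.X212.Win39.Rig

/-!
# Row 212, SW-WIN (helper39), part 3: `L`, `nm`, `gn` are continuous in `C¹`

`jt v` : the one-jet of a configuration on the cross-section; `gr_jt` : the gradient is a continuous
function of the jet; `cont1` : continuity; `lv` : the field of `Sw.WinStmt`.
-/

set_option autoImplicit false
set_option linter.unusedSectionVars false
noncomputable section
open scoped Manifold ContDiff Topology InnerProductSpace
open MeasureTheory Set Function Filter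

namespace Crest.Agent.X212.Win39
open An hiding Cfg Pt
open Cyf70 Sw Sw.En3 Sob92

variable {κ lam ν : Type} [Fintype κ] [Fintype lam] [Fintype ν] [DecidableEq ν]

/-- one-jets -/
abbrev Jt (κ ν : Type) : Type := (κ → ℝ) × (κ → κ → ℝ) × Eu ν × (κ → Eu ν)

/-- extension by zero -/
def o1 {N : Type} [Zero N] (a : κ → N) : Option κ → N
  | none => 0
  | some k => a k

/-- extension by zero -/
def o2 (d : κ → κ → ℝ) : Option κ → Option κ → ℝ
  | some i, some k => d i k
  | _, _ => 0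

variable {e : En3 κ lam ν}

/-- the jet of a configuration -/
def jt (v : e.YC) (y : e.Y.M) : Jt κ ν :=
  (fun k => v.a k y, fun i k => e.D.F.D i (v.a k) y, v.Φ y, fun i => e.D.F.D i v.Φ y)

section defs
variable (e) (y : e.Y.M) (j : Jt κ ν)

/-- the connection -/
def jW (i : Option κ) : En ν := e.cyl.A i (y, 0) + o1 j.1 i • e.cyl.jp (y, 0)

/-- its derivative -/
def jD (i k : Option κ) : En ν := e.D.Z.D i (e.cyl.A k) (y, 0) +
  (o2 j.2.1 i k • e.cyl.jp (y, 0) + o1 j.1 k • e.D.Z.D i e.cyl.jp (y, 0))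

/-- the curvature -/
def jF : F2 κ := WithLp.toLp 2 fun s => (1 / 8 : ℝ) * ⟪hsL (e.cyl.jp (y, 0)),
  hsL (jD e y j s.1 s.2 - jD e y j s.2 s.1 + (jW e y j s.1 * jW e y j s.2 - jW e y j s.2 * jW e y j s.1)
    - ∑ k, e.D.Z.c s.1 s.2 k (y, 0) • jW e y j k)⟫_ℝ

/-- the curvature equation -/
def jC : F2 κ :=
  e.cyl.p2 (y, 0) (jF e y j - e.w • e.cyl.qd (y, 0) j.2.2.1 j.2.2.1) - e.om y

/-- the Dirac equation -/
def jE : Eu ν := ∑ i, e.m.ρ i y (o1 j.2.2.2 i + jW e y j i j.2.2.1) + e.cyl.ms (y, 0) j.2.2.1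

end defs

/-- the configuration of a field of jets -/
def vJ (j : e.Y.M → Jt κ ν) : e.YC := ⟨fun k y => (j y).1 k, fun y => (j y).2.2.1⟩

/-- the gradient of a field of jets -/
def gJ (j : e.Y.M → Jt κ ν) : e.YC :=
  ⟨fun k y => 2 * (jC e y (j y) + deriv e.f (hol (vJ j)) • e.ζ y) (none, some k),
    fun y => -e.m.ρ none y (jE e y (j y)) - e.b (nm (vJ j)) • (j y).2.2.1⟩

/-- the functional of a field of jets -/
def lJ (j : e.Y.M → Jt κ ν) : ℝ := ∫ r in (0 : ℝ)..1, ip (gJ (r • j)) (vJ j)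

section jet
variable {v : e.YC}

theorem vJ_jt (v : e.YC) : vJ (jt v) = v := rfl

theorem sm_jp (H : e.OK) : Sm (IC e.Y.I) e.cyl.jp :=
  fun x => Wz78.SA.mul contMDiffAt_const (H.cyl.cp.choose_spec.1 x)

theorem sm_A (H : e.OK) (i : Option κ) : Sm (IC e.Y.I) (e.cyl.A i) := (H.cyl.cA i).choose_spec.1

theorem W_jt (v : e.YC) (y : e.Y.M) (i : Option κ) :
    e.cyl.W (fz v) i (y, 0) = jW e y (jt v y) i := by cases i <;> rfl

theorem Da_jt (ha : ∀ k, Sm e.Y.I (v.a k)) (y : e.Y.M) (i k : Option κ) :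
    e.D.Z.D i ((fz v).a k) (y, 0) = o2 (jt v y).2.1 i k := by
  cases k with
  | none => cases i <;> exact congrFun (dv_const (0 : ℝ)) _
  | some k =>
    cases i with
    | none => exact congrFun (D_none_fst e.D.F.toPre (ha k)) _
    | some i => exact congrFun (D_some_fst e.D.F.toPre (ha k) i) _

theorem DP_jt (hP : Sm e.Y.I v.Φ) (y : e.Y.M) (i : Option κ) :
    e.D.Z.D i (fz v).Φ (y, 0) = o1 (jt v y).2.2.2 i := by
  cases i with
  | none => exact congrFun (D_none_fst e.D.F.toPre hP) _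
  | some i => exact congrFun (D_some_fst e.D.F.toPre hP i) _

theorem sm_fz (ha : ∀ k, Sm e.Y.I (v.a k)) (k : Option κ) : Sm (IC e.Y.I) ((fz v).a k) := by
  cases k
  exacts [contMDiff_const, sm_fst (ha _)]

theorem DW_jt (H : e.OK) (ha : ∀ k, Sm e.Y.I (v.a k)) (y : e.Y.M) (i k : Option κ) :
    dv (IC e.Y.I) (e.cyl.F.e i) (e.cyl.W (fz v) k) (y, 0) = jD e y (jt v y) i k := by
  refine (Wz78.dv_add' (sm_A H k _) (Wz78.SA.smul (sm_fz ha k _) (sm_jp H _))).trans ?_
  rw [dv_smul ((sm_fz ha k).mdifferentiableAt (by simp)) ((sm_jp H).mdifferentiableAt (by simp)),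
    jD, ← Da_jt ha]
  cases k <;> rfl

theorem fc_jt (H : e.OK) (ha : ∀ k, Sm e.Y.I (v.a k)) (y : e.Y.M) :
    e.cyl.fc (fz v) (y, 0) = jF e y (jt v y) := by
  simp only [Bg.fc, Wz78.curv, jF, W_jt, DW_jt H ha]
  rfl

theorem eC_jt (H : e.OK) (ha : ∀ k, Sm e.Y.I (v.a k)) (y : e.Y.M) :
    e.cyl.eC (fz v) (y, 0) = jC e y (jt v y) := by
  rw [Bg.eC, fc_jt H ha]; rfl

theorem eD_jt (hP : Sm e.Y.I v.Φ) (y : e.Y.M) : e.cyl.eD (fz v) (y, 0) = jE e y (jt v y) := by
  simp only [Bg.eD, Wz78.dir, Wz78.nab, jE, W_jt, ← DP_jt hP]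
  rfl

theorem gr_jt (H : e.OK) (ha : ∀ k, Sm e.Y.I (v.a k)) (hP : Sm e.Y.I v.Φ) : gr v = gJ (jt v) := by
  simp only [gr, gJ, eC_jt H ha, eD_jt hP]
  rfl

theorem jt_smul (ha : ∀ k, Sm e.Y.I (v.a k)) (hP : Sm e.Y.I v.Φ) (r : ℝ) :
    jt (v.smul r) = r • jt v := funext fun y =>
  Prod.ext rfl (Prod.ext (funext₂ fun i k => congrFun (e.D.F.D_smul (ha k) r i) y)
    (Prod.ext rfl (funext fun i => congrFun (e.D.F.D_smul hP r i) y)))

theorem L_jt (H : e.OK) (ha : ∀ k, Sm e.Y.I (v.a k)) (hP : Sm e.Y.I v.Φ) : L v = lJ (jt v) := by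
  refine intervalIntegral.integral_congr fun r _ => ?_
  rw [gr_jt H (v := v.smul r) (fun k => (contMDiff_const (I' := 𝓘(ℝ, ℝ)) (c := r)).smul (ha k))
    ((contMDiff_const (I' := 𝓘(ℝ, ℝ)) (c := r)).smul hP), jt_smul ha hP, vJ_jt]

theorem cont_jt (ha : ∀ k, Sm e.Y.I (v.a k)) (hP : Sm e.Y.I v.Φ) : Continuous (jt v) :=
  (continuous_pi fun k => (ha k).continuous).prodMk
    ((continuous_pi fun i => continuous_pi fun k => (e.D.F.sm_D (ha k) i).continuous).prodMk
      (hP.continuous.prodMk (continuous_pi fun i => (e.D.F.sm_D hP i).continuous)))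

end jet

/-! ### continuity -/

section cont
variable {X : Type} [TopologicalSpace X] {y : X → e.Y.M} {j : X → Jt κ ν}

theorem c0 {N : Type} [TopologicalSpace N] {f : e.Y.M × ℝ → N} (hf : Continuous f)
    (hy : Continuous y) : Continuous fun x => f (y x, 0) := hf.comp (hy.prodMk continuous_const)

theorem cont_o1 {N : Type} [TopologicalSpace N] [Zero N] {a : X → κ → N} (ha : Continuous a)
    (i : Option κ) : Continuous fun x => o1 (a x) i := by
  cases i
  exacts [continuous_const, (continuous_apply _).comp ha]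

theorem cont_o2 {a : X → κ → κ → ℝ} (ha : Continuous a) (i k : Option κ) :
    Continuous fun x => o2 (a x) i k := by
  cases i <;> cases k
  exacts [continuous_const, continuous_const, continuous_const,
    (continuous_apply _).comp ((continuous_apply _).comp ha)]

variable (H : e.OK) (hy : Continuous y) (hj : Continuous j)
include H hy

theorem cont_ρ (i : Option κ) : Continuous fun x => e.m.ρ i (y x) :=
  c0 (H.cyl.cρ i).choose_spec.1.continuous hy

theorem cont_p2 {f : X → F2 κ} (hf : Continuous f) : Continuous fun x => e.cyl.p2 (y x, 0) (f x) := by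
  have hP := fun a b => c0 (H.cyl.B.sP a b).continuous hy
  have ho := fun a b c d => c0 (H.cyl.B.so a b c d).continuous hy
  refine (PiLp.continuous_toLp 2 _).comp (continuous_pi fun s => ?_ :
    Continuous fun x => (e.cyl.p2 (y x, 0) (f x)).ofLp)
  have : ∀ x, (e.cyl.p2 (y x, 0) (f x)).ofLp s = ∑ t, e.cyl.B.sd (y x, 0) s t • (f x).ofLp t :=
    fun x => by simp [Bg.p2, idx]
  simp only [this, Base.sd, Base.a2, Base.st]
  exact continuous_finsetSum _ fun t _ => ((((((hP _ _).mul (hP _ _)).sub ((hP _ _).mul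
    (hP _ _))).div_const _).add ((ho _ _ _ _).div_const _)).div_const _).smul
      ((PiLp.continuous_apply 2 _ t).comp hf)

include hj

theorem cont_jW (i : Option κ) : Continuous fun x => jW e (y x) (j x) i :=
  (c0 (sm_A H i).continuous hy).add ((cont_o1 hj.fst i).smul (c0 (sm_jp H).continuous hy))

theorem cont_jD (i k : Option κ) : Continuous fun x => jD e (y x) (j x) i k :=
  (c0 (e.D.Z.sm_D (sm_A H k) i).continuous hy).add
    (((cont_o2 hj.snd.fst i k).smul (c0 (sm_jp H).continuous hy)).add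
      ((cont_o1 hj.fst k).smul (c0 (e.D.Z.sm_D (sm_jp H) i).continuous hy)))

theorem cont_jF : Continuous fun x => jF e (y x) (j x) := by
  have hW := cont_jW H hy hj
  have hD := cont_jD H hy hj
  refine (PiLp.continuous_toLp 2 _).comp (continuous_pi fun s => continuous_const.mul
    ((hsL.continuous.comp (c0 (sm_jp H).continuous hy)).inner (hsL.continuous.comp ?_)))
  exact (((hD _ _).sub (hD _ _)).add (((hW _).mul (hW _)).sub ((hW _).mul (hW _)))).sub
    (continuous_finsetSum _ fun k _ => (c0 (e.D.Z.c_sm _ _ k).continuous hy).smul (hW k))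

theorem cont_jC : Continuous fun x => jC e (y x) (j x) := by
  have hP := hj.snd.snd.fst
  have h1 : Continuous fun x => e.cyl.qd (y x, 0) (j x).2.2.1 (j x).2.2.1 :=
    (PiLp.continuous_toLp 2 _).comp (continuous_pi fun s => continuous_const.mul
      ((e.m.J.continuous.comp ((cont_ρ H hy _).clm_apply ((cont_ρ H hy _).clm_apply hP))).inner hP))
  have h2 : Continuous fun x => e.om (y x) := c0 H.cyl.com.choose_spec.1.continuous hy
  exact (cont_p2 H hy (f := fun x => jF e (y x) (j x) - e.w • e.cyl.qd (y x, 0) (j x).2.2.1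
    (j x).2.2.1) ((cont_jF H hy hj).sub (h1.const_smul e.w))).sub h2

theorem cont_jE : Continuous fun x => jE e (y x) (j x) :=
  (continuous_finsetSum _ fun i _ => (cont_ρ H hy i).clm_apply ((cont_o1 hj.snd.snd.snd i).add
    ((cont_jW H hy hj i).clm_apply hj.snd.snd.fst))).add
      ((c0 H.cyl.cms.choose_spec.1.continuous hy).clm_apply hj.snd.snd.fst)

end cont

section par
variable {X : Type} [TopologicalSpace X]

theorem cont_int {f : X → e.Y.M → ℝ} (hf : Continuous fun p : X × e.Y.M => f p.1 p.2) :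
    Continuous fun x => ∫ y, f x y ∂e.D.F.μ :=
  continuousOn_univ.1 (continuousOn_integral_of_compact_support isCompact_univ hf.continuousOn
    fun _ _ _ h => absurd trivial h)

/-- continuous families of configurations -/
def CF (u : X → e.YC) : Prop := (∀ k, Continuous fun p : X × e.Y.M => (u p.1).a k p.2) ∧
  Continuous fun p : X × e.Y.M => (u p.1).Φ p.2

variable {u u' : X → e.YC} {j : X → e.Y.M → Jt κ ν}

theorem CF.nm (h : CF u) : Continuous fun x => nm (u x) := cont_int (h.2.norm.pow 2)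

theorem CF.ip (h : CF u) (h' : CF u') : Continuous fun x => ip (u x) (u' x) :=
  cont_int ((continuous_const.mul (continuous_finsetSum _ fun k _ => (h.1 k).mul (h'.1 k))).add
    (continuous_const.mul (h.2.inner h'.2)))

theorem CF.hol (H : e.OK) (h : CF u) : Continuous fun x => hol (u x) := by
  have := H.sζ.continuous
  exact cont_int (continuous_const.mul (continuous_finsetSum _ fun k _ =>
    Continuous.mul (by fun_prop) (h.1 k)))

theorem cf_vJ (hj : Continuous fun p : X × e.Y.M => j p.1 p.2) : CF fun x => vJ (j x) :=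
  ⟨fun k => (continuous_apply k).comp hj.fst, hj.snd.snd.fst⟩

theorem cf_gJ (H : e.OK) (hj : Continuous fun p : X × e.Y.M => j p.1 p.2) :
    CF fun x => gJ (j x) := by
  have h1 := (cont_jC H continuous_snd hj).add ((((H.sf.continuous_deriv (by simp)).comp
    ((cf_vJ hj).hol H)).comp continuous_fst).smul (H.sζ.continuous.comp continuous_snd))
  refine ⟨fun k => continuous_const.mul ((PiLp.continuous_apply 2 _ _).comp h1), ?_⟩
  exact ((cont_ρ H continuous_snd none).clm_apply (cont_jE H continuous_snd hj)).neg.sub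
    (((H.sb.continuous.comp (cf_vJ hj).nm).comp continuous_fst).smul hj.snd.snd.fst)

theorem cont_lJ (H : e.OK) (hj : Continuous fun p : X × e.Y.M => j p.1 p.2) :
    Continuous fun x => lJ (j x) := by
  have h1 : Continuous fun p : (X × ℝ) × e.Y.M => j p.1.1 p.2 :=
    hj.comp (continuous_fst.fst.prodMk continuous_snd)
  exact intervalIntegral.continuous_parametric_intervalIntegral_of_continuous'
    ((cf_gJ H (j := fun q : X × ℝ => q.2 • j q.1) (continuous_fst.snd.smul h1)).ip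
      (cf_vJ (j := fun q : X × ℝ => j q.1) h1)) 0 1

end par

/-- `L`, `nm`, `gn` are continuous in `C¹` -/
theorem cont1 (H : e.OK) {v : e.YC} (hv : e.cyl.Adm (fz v)) {ε : ℝ} (hε : 0 < ε) : ∃ η > 0,
    ∀ v' : e.YC, e.cyl.Adm (fz v') → (∀ y, ‖jt v' y - jt v y‖ ≤ η) →
      |L v' - L v| ≤ ε ∧ |nm v' - nm v| ≤ ε ∧ |gn v' - gn v| ≤ ε := by
  have hj : Continuous fun p : C(e.Y.M, Jt κ ν) × e.Y.M => p.1 p.2 := continuous_eval
  have h1 := ((cont_lJ H hj).prodMk ((cf_vJ hj).nm.prodMk ((cf_gJ H hj).ip (cf_gJ H hj))))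
  obtain ⟨δ, hδ, h⟩ := Metric.continuousAt_iff.1
    (h1.continuousAt (x := ⟨jt v, cont_jt (sm_a hv) (sm_P hv)⟩)) ε hε
  refine ⟨δ / 2, half_pos hδ, fun v' hv' hd => ?_⟩
  have h2 := h (x := ⟨jt v', cont_jt (sm_a hv') (sm_P hv')⟩)
    (((ContinuousMap.dist_le (half_pos hδ).le).2 fun y => (dist_eq_norm _ _).trans_le (hd y)).trans_lt
      (half_lt_self hδ))
  simp only [Prod.dist_eq, max_lt_iff, Real.dist_eq] at h2
  rw [L_jt H (sm_a hv) (sm_P hv), L_jt H (sm_a hv') (sm_P hv'), gn, gn, gr_jt H (sm_a hv) (sm_P hv),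
    gr_jt H (sm_a hv') (sm_P hv')]
  exact ⟨h2.1.le, h2.2.1.le, h2.2.2.le⟩

theorem gn_crit {v : e.YC} (hv : Crit v) : gn v = 0 := by simp [gn, ip, hv.2.1, hv.2.2]

/-! ### slices -/

variable {T : Set ℝ} {c : e.ZC} {t : ℝ}

theorem sm_sl {N : Type} [NormedAddCommGroup N] [NormedSpace ℝ N] {f : e.Y.M × ℝ → N} (hT : IsOpen T)
    (hf : ContMDiffOn (IC e.Y.I) 𝓘(ℝ, N) ∞ f (univ ×ˢ T)) (ht : t ∈ T) : Sm e.Y.I fun y => f (y, t) :=
  fun y => (hf.contMDiffAt (nh hT (x := (y, t)) ⟨trivial, ht⟩)).comp y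
    (contMDiffAt_id.prodMk contMDiffAt_const)

/-- slices are admissible -/
theorem adm_sl (hT : IsOpen T) (hc : e.cyl.AdmOn c (univ ×ˢ T)) (ht : t ∈ T) :
    e.cyl.Adm (fz (sl c t)) := by
  refine ⟨sm_fz fun k => sm_sl hT (hc.sa _) ht, sm_fst (sm_sl hT hc.sΦ ht), fun i x => ?_,
    fun x => hc.pΦ (x.1, t) ⟨trivial, ht⟩⟩
  have h := hc.pa i (x.1, t) ⟨trivial, ht⟩
  rw [Fintype.sum_option] at h ⊢
  cases i with
  | none => simp [fz, Nd18.ca, En3.cyl, Nd18.YD.B, cP]
  | some k => simpa [fz, sl, Nd18.ca, En3.cyl, Nd18.YD.B, cP] using h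

theorem D_sl {N : Type} [NormedAddCommGroup N] [NormedSpace ℝ N] {f : e.Y.M × ℝ → N} {g : e.Y.M → N}
    (hT : IsOpen T) (hf : ContMDiffOn (IC e.Y.I) 𝓘(ℝ, N) ∞ f (univ ×ˢ T)) (hg : Sm e.Y.I g)
    (ht : t ∈ T) (i : κ) (y : e.Y.M) : e.D.Z.D (some i) (f - fun x => g x.1) (y, t) =
      e.D.F.D i (fun y => f (y, t)) y - e.D.F.D i g y :=
  (D_some_at e.D.F.toPre (((hf.contMDiffAt (nh hT (x := (y, t)) ⟨trivial, ht⟩)).sub
    (sm_fst hg _)).mdifferentiableAt (by simp)) i).trans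
    (dv_sub ((sm_sl hT hf ht).mdifferentiableAt (by simp)) (hg.mdifferentiableAt (by simp)))

/-- `C¹`-closeness on the cylinder gives closeness of the jets of the slices -/
theorem jt_cl {v : e.YC} {η : ℝ} (hT : IsOpen T) (hc : e.cyl.AdmOn c (univ ×ˢ T))
    (hv : e.cyl.Adm (fz v)) (h : Cl c (fz v) T 1 η) (ht : t ∈ T) (y : e.Y.M) :
    ‖jt (sl c t) y - jt v y‖ ≤ η := by
  have h0 := Cl.pt h (x := (y, t)) ⟨trivial, ht⟩
  have h1 := fun i => h [some i] le_rfl (y, t) ⟨trivial, ht⟩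
  have hη := (norm_nonneg _).trans h0.2
  refine max_le ((pi_norm_le_iff_of_nonneg hη).2 fun k => h0.1 (some k)) (max_le
    ((pi_norm_le_iff_of_nonneg hη).2 fun i => (pi_norm_le_iff_of_nonneg hη).2 fun k => ?_)
    (max_le h0.2 ((pi_norm_le_iff_of_nonneg hη).2 fun i => ?_)))
  · exact (congrArg norm (D_sl hT (hc.sa _) (sm_a hv k) ht i y)).symm.trans_le ((h1 i).1 (some k))
  · exact (congrArg norm (D_sl hT hc.sΦ (sm_P hv) ht i y)).symm.trans_le (h1 i).2

theorem Jv_some (a b : ℝ) : Nd18.Jv (some a) (some b) = Ioo a b := by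
  ext; simp [Nd18.Jv]

/-- gauge invariance on windows -/
theorem loca_win (P : PbStmt κ lam ν) (H : e.OK) {s : ℝ} {u : e.Y.M × ℝ → ℂ}
    (hc : e.cyl.AdmOn c (univ ×ˢ win s)) (hu : GauOn e.Z.I u (univ ×ˢ win s)) :
    e.cyl.AdmOn (e.cyl.act u c) (univ ×ˢ win s) ∧ ∀ t ∈ win s, Eqv (sl c t) (sl (e.cyl.act u c) t) ∧
      gn (sl (e.cyl.act u c) t) = gn (sl c t) ∧ nm (sl (e.cyl.act u c) t) = nm (sl c t) := by
  have h := P.loca e H Empty (fun _ => none) 0 c (some s) (some s) u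
    ⟨by simpa only [Option.map_some, Jv_some] using hc, fun x hx => by
      rw [Jv_some, Ioo_self] at hx; exact hx.2.elim⟩
    (by simpa only [Option.map_some, Jv_some] using hu)
  exact ⟨by simpa only [Option.map_some, Jv_some] using h.1.adm,
    by simpa only [Option.map_some, Jv_some] using h.2⟩

/-- the field `lv` of `WinStmt` -/
theorem lv (P : PbStmt κ lam ν) : ∀ (e : En3 κ lam ν) (v : e.YC), e.OK → e.Inv → Crit v → ∀ ε > 0,
    ∃ η > 0, ∀ c s, e.cyl.AdmOn c (univ ×ˢ win s) → Nr c v s 1 η → ∀ t ∈ win s,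
      |L (sl c t) - L v| ≤ ε ∧ |nm (sl c t) - nm v| ≤ ε ∧ gn (sl c t) ≤ ε := by
  intro e v H hI hv ε hε
  obtain ⟨η, hη, h⟩ := cont1 H hv.1 hε
  refine ⟨η, hη, fun c s hc ⟨u, hu, hk⟩ t ht => ?_⟩
  obtain ⟨h1, h2⟩ := loca_win P H hc hu
  obtain ⟨h3, h4, h5⟩ := h2 t ht
  have h6 := h _ (adm_sl isOpen_Ioo h1 ht) (jt_cl isOpen_Ioo h1 hv.1 hk ht)
  rw [hI _ _ (adm_sl isOpen_Ioo hc ht) h3, h4, h5, gn_crit hv, sub_zero] at h6
  exact ⟨h6.1, h6.2.1, (le_abs_self _).trans h6.2.2⟩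

end Crest.Agent.X212.Win39
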