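import Crest.Agent.X212.Neck67.Lb
import Crest.Agent.X212.Sob92.Ev

/-!
# Row 212, SW-WIN (helper39), part 1: oscillation, circle valued functions

`osc_loc`, `osc` : a bound of the derivatives bounds the oscillation; `unif` : pointwise limits are
uniform; `lb_ode` : bounds for `D u = i β u`; `lim_ode` : limits of such functions.
-/

set_option autoImplicit false
set_option linter.unusedSectionVars false
noncomputable section
open scoped Manifold ContDiff Topology InnerProductSpace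
open MeasureTheory Set Function Filter

namespace Crest.Agent.X212.Win39
open An Sob92 Neck67

variable {E : Type} [NormedAddCommGroup E] [NormedSpace ℝ E] [FiniteDimensional ℝ E]
  [MeasurableSpace E] [BorelSpace E]
  {HM : Type} [TopologicalSpace HM] {I : ModelWithCorners ℝ E HM} [I.Boundaryless]
  {M : Type} [TopologicalSpace M] [ChartedSpace HM M] [IsManifold I ∞ M]
  [MeasurableSpace M] [T2Space M] [BorelSpace M] {ι : Type} [Fintype ι]
  {N : Type} [NormedAddCommGroup N] [NormedSpace ℝ N] (F : Pre I M ι)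

variable (N) in
/-- the oscillation between `x` and `x'` is at most `C` times a bound of the derivatives -/
def Os (C : ℝ) (x x' : M) : Prop := ∀ (f : M → N) (η : ℝ), 0 ≤ η →
  MDifferentiable I 𝓘(ℝ, N) f → (∀ a z, ‖F.D a f z‖ ≤ η) → ‖f x - f x'‖ ≤ C * η

variable {F} in
theorem Os.mono {C C' : ℝ} {x x' : M} (h : Os N F C x x') (hC : C ≤ C') : Os N F C' x x' :=
  fun f η h0 hf hb => (h f η h0 hf hb).trans (mul_le_mul_of_nonneg_right hC h0)

variable {F} in
theorem Os.symm {C : ℝ} {x x' : M} (h : Os N F C x x') : Os N F C x' x :=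
  fun f η h0 hf hb => norm_sub_rev (f x) (f x') ▸ h f η h0 hf hb

variable {F} in
theorem Os.trans {C C' : ℝ} {x x' x'' : M} (h : Os N F C x x') (h' : Os N F C' x' x'') :
    Os N F (C + C') x x'' := fun f η h0 hf hb => by
  have := norm_sub_le_norm_sub_add_norm_sub (f x) (f x') (f x'')
  have := h f η h0 hf hb
  have := h' f η h0 hf hb
  linarith

variable (N) in
theorem osc_loc (x₀ : M) {ε : ℝ} (hε : 0 < ε) : ∀ᶠ x in 𝓝 x₀, Os N F ε x x₀ := by
  obtain ⟨R, hR, hRT⟩ := exists_rinv F.sm x₀ (span_coef F x₀)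
  have hx₀ := mem_chart_source HM x₀
  have h3 := (chart_symm_smoothAt (I := I) hx₀).continuousAt.tendsto
  rw [extChartAt_to_inv] at h3
  have h2 : ∀ᶠ y in 𝓝 (extChartAt I x₀ x₀), y ∈ (extChartAt I x₀).target :=
    extChartAt_target_mem_nhds x₀
  have hb : ∀ᶠ x in 𝓝 x₀, ‖R x‖ < ‖R x₀‖ + 1 :=
    hR.continuousAt.norm.eventually (gt_mem_nhds (by linarith))
  obtain ⟨r, hr, hB⟩ := Metric.eventually_nhds_iff_ball.1 (h2.and (h3.eventually (hRT.and hb)))
  set K := (‖comb ι N‖ + 1) * (‖R x₀‖ + 1) with hK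
  have hK0 : 0 < K := by positivity
  have hc := (continuousAt_extChartAt (I := I) x₀).eventually
    (Metric.ball_mem_nhds _ (lt_min hr (div_pos hε hK0)))
  filter_upwards [hc, extChartAt_source_mem_nhds (I := I) x₀] with x hx hs f η h0 hf hD
  have hx1 := Metric.ball_subset_ball (min_le_left _ _) hx
  have hx2 := (mem_ball_iff_norm.1 hx).trans_le (min_le_right _ _)
  have key := (convex_ball (extChartAt I x₀ x₀) r).norm_image_sub_le_of_norm_hasFDerivWithin_le
    (𝕜 := ℝ) (f := f ∘ (extChartAt I x₀).symm) (C := K * η)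
    (f' := fun y => (comb ι N fun a => F.D a f ((extChartAt I x₀).symm y)).comp
      (R ((extChartAt I x₀).symm y))) (fun y hy => ?_) (fun y hy => ?_)
    (Metric.mem_ball_self hr) hx1
  · simp only [comp_apply, extChartAt_to_inv, (extChartAt I x₀).left_inv hs] at key
    refine key.trans ?_
    calc _ ≤ K * η * (ε / K) := by gcongr
      _ = ε * η := by field_simp
  · have h4 : (extChartAt I x₀).symm y ∈ (chartAt HM x₀).source := by
      simpa using (extChartAt I x₀).map_target (hB y hy).1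
    have := chart_hasFDerivAt h4 (hB y hy).2.1 (hf _)
    rw [(extChartAt I x₀).right_inv (hB y hy).1] at this
    exact this.hasFDerivWithinAt
  · refine (ContinuousLinearMap.opNorm_comp_le _ _).trans ?_
    have h5 : ‖fun a => F.D a f ((extChartAt I x₀).symm y)‖ ≤ η :=
      (pi_norm_le_iff_of_nonneg h0).2 fun a => hD a _
    have h6 := (hB y hy).2.2.le
    calc _ ≤ ‖comb ι N‖ * η * (‖R x₀‖ + 1) := by
          gcongr
          exact ((comb ι N).le_opNorm _).trans (by gcongr)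
      _ ≤ (‖comb ι N‖ + 1) * η * (‖R x₀‖ + 1) := by gcongr; linarith
      _ = K * η := by ring

variable (N) in
/-- the oscillation on a compact connected manifold -/
theorem osc [CompactSpace M] [PreconnectedSpace M] : ∃ C, 0 ≤ C ∧ ∀ x x', Os N F C x x' := by
  rcases isEmpty_or_nonempty M with h | ⟨⟨x₀⟩⟩
  · exact ⟨0, le_rfl, fun x => isEmptyElim x⟩
  have hc : IsClopen {x | ∃ C, Os N F C x x₀} := by
    refine ⟨⟨isOpen_iff_mem_nhds.2 fun x hx => ?_⟩, isOpen_iff_mem_nhds.2 fun x ⟨C, hx⟩ => ?_⟩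
    · filter_upwards [osc_loc N F x one_pos] with y hy ⟨C, h⟩ using hx ⟨_, hy.symm.trans h⟩
    · filter_upwards [osc_loc N F x one_pos] with y hy using ⟨_, hy.trans hx⟩
  have hu := hc.eq_univ ⟨x₀, 0, fun f η _ _ _ => by simp⟩
  obtain ⟨C, hC⟩ := isCompact_univ.induction_on (p := fun S => ∃ C, ∀ x ∈ S, Os N F C x x₀)
    ⟨0, by simp⟩ (fun s t hst ⟨C, h⟩ => ⟨C, fun x hx => h x (hst hx)⟩)
    (fun s t ⟨C, h⟩ ⟨C', h'⟩ => ⟨max C C', fun x hx => hx.elim
      (fun hx => (h x hx).mono (le_max_left _ _)) fun hx => (h' x hx).mono (le_max_right _ _)⟩)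
    fun x _ => by
      obtain ⟨C, h⟩ : x ∈ {x | ∃ C, Os N F C x x₀} := hu ▸ mem_univ x
      exact ⟨_, mem_nhdsWithin_of_mem_nhds (osc_loc N F x one_pos), 1 + C, fun y hy => hy.trans h⟩
  exact ⟨|C + C|, abs_nonneg _, fun x x' =>
    ((hC x trivial).trans (hC x' trivial).symm).mono (le_abs_self _)⟩

/-- pointwise limits of functions with bounded derivatives are uniform -/
theorem unif [CompactSpace M] {α : Type} {l : Filter α} [l.NeBot] {f : α → M → N} {g : M → N}
    {C : ℝ} (hC : 0 ≤ C) (hf : ∀ n, MDifferentiable I 𝓘(ℝ, N) (f n))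
    (hb : ∀ᶠ n in l, ∀ a z, ‖F.D a (f n) z‖ ≤ C) (hg : ∀ x, Tendsto (fun n => f n x) l (𝓝 (g x))) :
    TendstoUniformly f g l := by
  rw [← tendstoLocallyUniformly_iff_tendstoUniformly_of_compactSpace,
    tendstoLocallyUniformly_iff_filter]
  intro x
  rw [Metric.tendstoUniformlyOnFilter_iff]
  intro ε hε
  have h1 := (Metric.tendsto_nhds.1 (hg x) (ε / 3) (by positivity)).and hb
  filter_upwards [h1.prod_mk (osc_loc N F x (ε := ε / 3 / (C + 1)) (by positivity))] with p hp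
  have h2 : ε / 3 / (C + 1) * C ≤ ε / 3 := by
    rw [div_mul_eq_mul_div, div_le_iff₀ (by positivity)]; nlinarith
  have h3 := (hp.2 _ C hC (hf p.1) hp.1.2).trans h2
  have h4 : ‖g p.2 - g x‖ ≤ ε / 3 := le_of_tendsto ((hg p.2).sub (hg x)).norm
    (hb.mono fun n hn => (hp.2 _ C hC (hf n) hn).trans h2)
  have h5 := hp.1.1
  rw [dist_eq_norm] at h5 ⊢
  have h6 := norm_sub_le_norm_sub_add_norm_sub (g p.2) (g x) (f p.1 p.2)
  have h7 := norm_sub_le_norm_sub_add_norm_sub (g x) (f p.1 x) (f p.1 p.2)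
  rw [norm_sub_rev (g x) (f p.1 x), norm_sub_rev (f p.1 x) (f p.1 p.2)] at h7
  linarith

/-! ### circle valued functions -/

variable {F}

/-- `D u = i β u` with `β = Im (ū D u)` -/
theorem D_unit {u : M → ℂ} {x : M} (hu : MDifferentiableAt I 𝓘(ℝ, ℂ) u x)
    (h1 : ∀ᶠ y in 𝓝 x, ‖u y‖ = 1) (a : ι) :
    F.D a u x = ((star (u x) * F.D a u x).im * Complex.I) * u x := by
  have h2 : F.D a (fun y => ⟪u y, u y⟫_ℝ) x = ⟪F.D a u x, u x⟫_ℝ + ⟪u x, F.D a u x⟫_ℝ :=
    dv_bil (innerSL ℝ (E := ℂ)) hu hu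
  have h3 : F.D a (fun y => ⟪u y, u y⟫_ℝ) x = 0 := by
    rw [F.D_def, dv_congr (v := fun _ => (1 : ℝ)) (h1.mono fun y hy => by
      simp only [real_inner_self_eq_norm_sq, hy, one_pow]), dv_const]; rfl
  have h4 := h1.self_of_nhds
  have h5 : (u x).re ^ 2 + (u x).im ^ 2 = 1 := by
    rw [← one_pow 2, ← h4, Complex.sq_norm, Complex.normSq_apply]; ring
  rw [h3] at h2
  simp only [Complex.inner, Complex.mul_re, Complex.conj_re, Complex.conj_im] at h2
  generalize F.D a u x = d at h2 ⊢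
  generalize u x = z at h2 h5 ⊢
  apply Complex.ext <;> simp
  · linear_combination (-d.re) * h5 - z.re / 2 * h2
  · linear_combination (-d.im) * h5 - z.im / 2 * h2

/-- `r ↦ (z ↦ r i z)` -/
def mi : ℝ →L[ℝ] ℂ →L[ℝ] ℂ :=
  (ContinuousLinearMap.mul ℝ ℂ).comp ((ContinuousLinearMap.id ℝ ℝ).smulRight Complex.I)

theorem mi_apply (r : ℝ) (z : ℂ) : mi r z = (r * Complex.I) * z := by simp [mi]

theorem norm_mi : ‖mi‖ ≤ 1 := ContinuousLinearMap.opNorm_le_bound₂ _ zero_le_one fun r z => by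
  simp [mi_apply]

/-- the constants -/
def cO : ℕ → ℝ
  | 0 => 1
  | k + 1 => 1 + 2 ^ k * cO k

theorem one_le_cO : ∀ k, 1 ≤ cO k
  | 0 => le_rfl
  | k + 1 => by have := one_le_cO k; rw [cO]; exact le_add_of_nonneg_right (by positivity)

/-- bounds for the solutions of `D u = i β u` -/
theorem lb_ode {S : Set M} (hS : IsOpen S) {u : M → ℂ} {β : ι → M → ℝ} {k : ℕ} {η : ℝ}
    (hu : ∀ x ∈ S, ContMDiffAt I 𝓘(ℝ, ℂ) ∞ u x ∧ ‖u x‖ ≤ 1) (h0 : 0 ≤ η) (h1 : η ≤ 1)
    (hβ : ∀ a, Lb F S k (β a) η) (hD : ∀ a, ∀ x ∈ S, F.D a u x = mi (β a x) (u x)) :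
    ∀ a, Lb F S k (F.D a u) (cO (k + 1) * η) := by
  have e : ∀ j ≤ k, Lb F S j u (cO j) → ∀ a, Lb F S j (F.D a u) (2 ^ j * cO j * η) :=
    fun j hj h a => ((((hβ a).of_le hj).bil' hS norm_mi h).congr hS (hD a)).mono (le_of_eq (by
      rw [abs_of_nonneg h0, abs_of_nonneg (zero_le_one.trans (one_le_cO j))]; ring))
  have e' : ∀ j ≤ k, Lb F S j u (cO j) := fun j => by
    induction j with
    | zero => exact fun _ => hu
    | succ j ih =>
      intro hj
      have := one_le_cO j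
      refine ⟨fun x hx => ⟨(hu x hx).1, (hu x hx).2.trans (one_le_cO _)⟩, fun a =>
        (e j (by omega) (ih (by omega)) a).mono ?_⟩
      rw [cO]
      have : 2 ^ j * cO j * η ≤ 2 ^ j * cO j := mul_le_of_le_one_right (by positivity) h1
      linarith
  exact fun a => (e k le_rfl (e' k le_rfl) a).mono (by rw [cO]; nlinarith)

/-- solutions of `D u = i β u` with smooth `β` are smooth -/
theorem sm_ode {u : M → ℂ} {β : ι → M → ℝ} (hu : MDifferentiable I 𝓘(ℝ, ℂ) u)
    (hβ : ∀ a, Sm I (β a)) (hD : ∀ a x, F.D a u x = mi (β a x) (u x)) : Sm I u := by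
  refine contMDiff_infty.2 fun n => contMDiff_of_class F.sm (span_coef F)
    (fun _ f => ∃ g : M → ℂ, Sm I g ∧ f = fun x => g x * u x) ?_ ?_ n u
    ⟨fun _ => 1, contMDiff_const, by simp⟩
  · rintro _ ⟨g, hg, rfl⟩
    exact hg.continuous.mul hu.continuous
  · rintro _ _ ⟨g, hg, rfl⟩
    have h1 := hg.mdifferentiable (by simp)
    refine ⟨fun x => (((ContinuousLinearMap.mul ℝ ℂ).hasFDerivAt.differentiableAt.mdifferentiableAt.comp
      x (h1 x)).clm_apply (hu x)), fun a => ⟨fun x => F.D a g x + mi (β a x) (g x),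
        (F.sm_D hg a).add (smooth_bil mi (hβ a) hg), funext fun x => ?_⟩⟩
    refine (dv_bil (ContinuousLinearMap.mul ℝ ℂ) (h1 x) (hu x)).trans ?_
    rw [← F.D_def, ← F.D_def, hD]
    simp only [ContinuousLinearMap.mul_apply', mi_apply]; ring

/-- limits of solutions of `D u = i β u` -/
theorem lim_ode [CompactSpace M] {α : Type} (𝒰 : Ultrafilter α) {u : α → M → ℂ}
    {β : α → ι → M → ℝ} {δ : ι → M → ℝ} (hu : ∀ n, MDifferentiable I 𝓘(ℝ, ℂ) (u n))
    (h1 : ∀ n x, ‖u n x‖ = 1) (hD : ∀ n a x, F.D a (u n) x = mi (β n a x) (u n x))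
    (hδ : ∀ a, Sm I (δ a)) (hβ : ∀ a, TendstoUniformly (fun n => β n a) (δ a) 𝒰) :
    ∃ U : M → ℂ, Sm I U ∧ (∀ x, ‖U x‖ = 1) ∧ (∀ a x, F.D a U x = mi (δ a x) (U x)) ∧
      ∀ x, Tendsto (fun n => u n x) 𝒰 (𝓝 (U x)) := by
  have ex : ∀ x, ∃ z ∈ Metric.sphere (0 : ℂ) 1, Tendsto (fun n => u n x) 𝒰 (𝓝 z) := fun x =>
    (isCompact_sphere (0 : ℂ) 1).ultrafilter_le_nhds (𝒰.map fun n => u n x)
      (le_principal_iff.2 (mem_map.2 (univ_mem' fun n => by simpa using h1 n x)))
  choose U hU hl using ex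
  have hU1 : ∀ x, ‖U x‖ = 1 := fun x => by simpa using hU x
  obtain ⟨C, hC⟩ := (isCompact_range (continuous_pi fun a => (hδ a).continuous)).isBounded.exists_norm_le
  have hC' : ∀ a x, |δ a x| ≤ |C| := fun a x =>
    ((norm_le_pi_norm (fun a => δ a x) a).trans (hC _ ⟨x, rfl⟩)).trans (le_abs_self C)
  have hn : ∀ (r : ℝ) (z : ℂ), ‖mi r z‖ = |r| * ‖z‖ := fun r z => by simp [mi_apply]
  have hev : ∀ ε > 0, ∀ᶠ n in (𝒰 : Filter α), ∀ a x, |δ a x - β n a x| < ε := fun ε hε =>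
    eventually_all.2 fun a => Metric.tendstoUniformly_iff.1 (hβ a) ε hε
  have hun := unif F (C := |C| + 1) (by positivity) hu ((hev 1 one_pos).mono fun n hn' a x => by
    rw [hD, hn, h1, mul_one]
    have := abs_sub_abs_le_abs_sub (β n a x) (δ a x)
    have := hn' a x
    rw [abs_sub_comm] at this
    linarith [hC' a x]) hl
  have key := mdiff_of_limit F.sm (span_coef F) (g := fun a x => mi (δ a x) (U x)) hu hl fun a => by
    rw [Metric.tendstoUniformly_iff]
    intro ε hε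
    filter_upwards [hev (ε / 2) (by positivity), Metric.tendstoUniformly_iff.1 hun
      (ε / 2 / (|C| + 1)) (by positivity)] with n e1 e2 x
    have e3 : mi (δ a x) (U x) - mi (β n a x) (u n x) =
        mi (δ a x) (U x - u n x) + mi (δ a x - β n a x) (u n x) := by
      simp only [map_sub, sub_apply]; abel
    have e4 := e2 x
    rw [dist_eq_norm, lt_div_iff₀ (by positivity)] at e4
    rw [← F.D_def, hD, dist_eq_norm, e3]
    refine (norm_add_le _ _).trans_lt ?_
    rw [hn, hn, h1, mul_one]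
    nlinarith [e1 a x, hC' a x, norm_nonneg (U x - u n x)]
  exact ⟨U, sm_ode (fun x => (key x).1) hδ fun a x => (key x).2 a, hU1, fun a x => (key x).2 a, hl⟩

end Crest.Agent.X212.Win39
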