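import Crest.Agent.X212.Sw.Cyl
import Crest.Agent.X212.Win39.Osc

/-!
# Row 212, SW-WIN (helper39), part 2: rigidity and separation

`rigOn` (any open set of times), `rig`, `sep` : fields of `Sw.WinStmt`.
-/

set_option autoImplicit false
set_option linter.unusedSectionVars false
noncomputable section
open scoped Manifold ContDiff Topology InnerProductSpace
open MeasureTheory Set Function Filter

namespace Crest.Agent.X212.Win39
open An hiding Cfg Pt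
open Cyf70 Sw Sw.En3 Neck67 Sob92

variable {κ lam ν : Type} [Fintype κ] [Fintype lam] [Fintype ν] [DecidableEq ν]

section lin
variable {J : En ν}

theorem J_J (h : J * J = -1) (v : Eu ν) : J (J v) = -v := congrArg (fun T : En ν => T v) h

theorem cs_cs (h : J * J = -1) (c d : ℂ) (v : Eu ν) : cs J c (cs J d v) = cs J (c * d) v := by
  simp only [cs, map_add, map_smul, J_J h, Complex.mul_re, Complex.mul_im]; module

theorem cs_sub_r (c : ℂ) (v w : Eu ν) : cs J c (v - w) = cs J c v - cs J c w := by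
  simp only [cs, map_sub]; module

theorem cs_sub_l (c d : ℂ) (v : Eu ν) : cs J (c - d) v = cs J c v - cs J d v := by
  simp only [cs, Complex.sub_re, Complex.sub_im]; module

theorem cs_one (v : Eu ν) : cs J 1 v = v := by simp [cs]

theorem norm_cs (h : J * J = -1) (hs : Skw J) (c : ℂ) (v : Eu ν) : ‖cs J c v‖ = ‖c‖ * ‖v‖ := by
  have h1 : ⟪J v, v⟫_ℝ = 0 := by have := hs v v; rw [real_inner_comm (J v) v] at this; linarith
  have h2 : ⟪J v, J v⟫_ℝ = ⟪v, v⟫_ℝ := by rw [hs, J_J h, inner_neg_right, neg_neg]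
  rw [← sq_eq_sq₀ (norm_nonneg _) (by positivity), mul_pow, Complex.sq_norm, Complex.normSq_apply,
    ← real_inner_self_eq_norm_sq, ← real_inner_self_eq_norm_sq]
  simp only [cs, inner_add_left, inner_add_right, real_inner_smul_left, real_inner_smul_right, h1,
    h2, real_inner_comm (J v) v]
  ring

theorem cont_cs (v : Eu ν) : Continuous fun c : ℂ => cs J c v := by unfold cs; fun_prop

end lin

variable {e : En3 κ lam ν} {T : Set ℝ} {c : e.ZC} {u : e.Y.M × ℝ → ℂ} {x : e.Y.M × ℝ}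

theorem Jsq (H : e.OK) : e.m.J * e.m.J = -1 := H.cyl.m.Jsq

theorem ncs (H : e.OK) (z : ℂ) (v : Eu ν) : ‖cs e.m.J z v‖ = ‖z‖ * ‖v‖ :=
  norm_cs H.cyl.m.Jsq H.cyl.m.Jsk z v

theorem nh (hT : IsOpen T) (hx : x ∈ univ ×ˢ T) : univ ×ˢ T ∈ 𝓝 x :=
  (isOpen_univ.prod hT).mem_nhds hx

/-- the one-form of a gauge transformation -/
def bt (e : En3 κ lam ν) (u : e.Y.M × ℝ → ℂ) (i : Option κ) (x : e.Y.M × ℝ) : ℝ :=
  (star (u x) * e.D.Z.D i u x).im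

theorem act_a (i : Option κ) (x : e.Y.M × ℝ) : (e.cyl.act u c).a i x = c.a i x - bt e u i x := rfl

theorem act_P (x : e.Y.M × ℝ) : (e.cyl.act u c).Φ x = cs e.m.J (u x) (c.Φ x) := rfl

theorem gau_at (hT : IsOpen T) (hu : GauOn e.Z.I u (univ ×ˢ T)) (hx : x ∈ univ ×ˢ T) :
    ContMDiffAt (IC e.Y.I) 𝓘(ℝ, ℂ) ∞ u x := hu.1.contMDiffAt (nh hT hx)

theorem D_gau (hT : IsOpen T) (hu : GauOn e.Z.I u (univ ×ˢ T)) (hx : x ∈ univ ×ˢ T) (i : Option κ) :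
    e.D.Z.D i u x = mi (bt e u i x) (u x) := by
  rw [mi_apply]
  exact D_unit ((gau_at hT hu hx).mdifferentiableAt (by simp))
    (mem_of_superset (nh hT hx) hu.2) i

theorem sm_bt (hT : IsOpen T) (hu : GauOn e.Z.I u (univ ×ˢ T)) (hx : x ∈ univ ×ˢ T) (i : Option κ) :
    ContMDiffAt (IC e.Y.I) 𝓘(ℝ, ℝ) ∞ (bt e u i) x :=
  Complex.imCLM.contMDiff.contMDiffAt.comp x (Wz78.SA.mul
    ((Complex.conjCLE : ℂ →L[ℝ] ℂ).contMDiff.contMDiffAt.comp x (gau_at hT hu hx))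
    (dv_smoothAt (e.D.Z.sm i x) (gau_at hT hu hx)))

/-- slices of a gauge transformation -/
theorem gau_sl (hT : IsOpen T) (hu : GauOn e.Z.I u (univ ×ˢ T)) {t : ℝ} (ht : t ∈ T) :
    Gau e.Y.I (fun y => u (y, t)) ∧
      ∀ k y, e.D.F.D k (fun y => u (y, t)) y = mi (bt e u (some k) (y, t)) (u (y, t)) :=
  ⟨⟨fun y => (gau_at hT hu (x := (y, t)) ⟨trivial, ht⟩).comp y
      (contMDiffAt_id.prodMk contMDiffAt_const), fun y => hu.2 (y, t) ⟨trivial, ht⟩⟩,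
    fun k y => (D_some_at e.D.F.toPre ((gau_at hT hu (x := (y, t)) ⟨trivial, ht⟩).mdifferentiableAt
      (by simp)) k).symm.trans (D_gau hT hu ⟨trivial, ht⟩ _)⟩

theorem norm_mi' (r : ℝ) (z : ℂ) : ‖mi r z‖ = |r| * ‖z‖ := by simp [mi_apply]

/-- `Cl` at order zero -/
theorem Cl.pt {c' : e.ZC} {k : ℕ} {η : ℝ} (h : Cl c c' T k η) (hx : x ∈ univ ×ˢ T) :
    (∀ i, |c.a i x - c'.a i x| ≤ η) ∧ ‖c.Φ x - c'.Φ x‖ ≤ η := h [] (Nat.zero_le _) x hx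

/-- **rigidity** over any open set of times -/
theorem rigOn (e : En3 κ lam ν) (v : e.YC) (H : e.OK) (hv : e.cyl.Adm (fz v))
    (h0 : ∃ y, v.Φ y ≠ 0) (k : ℕ) : ∃ C : ℝ, 0 ≤ C ∧ ∀ c u (T : Set ℝ) η, IsOpen T → η ≤ 1 / 2 →
    e.cyl.AdmOn c (univ ×ˢ T) → GauOn e.Z.I u (univ ×ˢ T) →
    Cl c (fz v) T k η → Cl (e.cyl.act u c) (fz v) T k η →
    ∀ w : List (Option κ), w.length ≤ k + 1 → ∀ x ∈ univ ×ˢ T, ‖e.D.Z.Dw w (u - 1) x‖ ≤ C * η := by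
  obtain ⟨y₀, hy₀⟩ := h0
  obtain ⟨C₀, hC₀, hO⟩ := osc ℂ e.D.F.toPre
  have hm := norm_pos_iff.2 hy₀
  have hc := one_le_cO (k + 1)
  refine ⟨cO (k + 1) * 2 + (C₀ * 2 + 2 / ‖v.Φ y₀‖), by positivity,
    fun c u T η hT hη hc hu h1 h2 w hw x hx => ?_⟩
  have hη0 : 0 ≤ η := (norm_nonneg _).trans (Cl.pt h1 hx).2
  have hS := isOpen_univ (X := e.Y.M).prod hT
  have s1 : ∀ i, ∀ x ∈ univ ×ˢ T, ContMDiffAt (IC e.Y.I) 𝓘(ℝ, ℝ) ∞ (c.a i - (fz v).a i) x :=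
    fun i x hx => ((hc.sa i).contMDiffAt (nh hT hx)).sub (hv.sa i x)
  have hβ : ∀ i, Lb e.D.Z.toPre (univ ×ˢ T) k (bt e u i) (2 * η) := fun i =>
    (((Lb.of_Dw (s1 i) fun w hw x hx => (h1 w hw x hx).1 i).sub' hS (Lb.of_Dw
      (f := (e.cyl.act u c).a i - (fz v).a i) (fun x hx => (((hc.sa i).contMDiffAt
        (nh hT hx)).sub (sm_bt hT hu hx i)).sub (hv.sa i x))
      fun w hw x hx => (h2 w hw x hx).1 i)).congr hS fun x _ => by
        simp only [Pi.sub_apply, act_a]; ring).mono (by rw [abs_of_nonneg hη0]; linarith)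
  cases w with
  | nil =>
    obtain ⟨y, t⟩ := x
    have g := gau_sl hT hu hx.2
    have e1 := hO y y₀ _ (2 * η) (by positivity) (g.1.1.mdifferentiable (by simp)) fun a z => by
      rw [g.2, norm_mi', g.1.2, mul_one]
      exact (hβ (some a)).le (x := (z, t)) ⟨trivial, hx.2⟩
    have e2 : ‖u (y₀, t) - 1‖ * ‖v.Φ y₀‖ ≤ 2 * η := by
      have e3 : ‖c.Φ (y₀, t) - v.Φ y₀‖ ≤ η := (Cl.pt h1 (x := (y₀, t)) ⟨trivial, hx.2⟩).2
      have e4 : ‖cs e.m.J (u (y₀, t)) (c.Φ (y₀, t)) - v.Φ y₀‖ ≤ η :=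
        (Cl.pt h2 (x := (y₀, t)) ⟨trivial, hx.2⟩).2
      have e5 := ncs H (u (y₀, t)) (c.Φ (y₀, t) - v.Φ y₀)
      have e6 := ncs H (u (y₀, t) - 1) (v.Φ y₀)
      rw [g.1.2, one_mul, cs_sub_r, norm_sub_rev] at e5
      rw [cs_sub_l, cs_one] at e6
      have e7 := norm_sub_le_norm_sub_add_norm_sub (cs e.m.J (u (y₀, t)) (v.Φ y₀))
        (cs e.m.J (u (y₀, t)) (c.Φ (y₀, t))) (v.Φ y₀)
      exact e6 ▸ e7.trans (by linarith [e5.trans_le e3])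
    have e8 := norm_sub_le_norm_sub_add_norm_sub (u (y, t)) (u (y₀, t)) 1
    rw [← le_div_iff₀ hm] at e2
    refine e8.trans ((add_le_add e1 e2).trans ?_)
    have : 0 ≤ cO (k + 1) * 2 * η := by positivity
    calc _ = (C₀ * 2 + 2 / ‖v.Φ y₀‖) * η := by ring
      _ ≤ _ := by linarith [add_mul (cO (k + 1) * 2) (C₀ * 2 + 2 / ‖v.Φ y₀‖) η]
  | cons a w =>
    have e1 := lb_ode hS (fun x hx => ⟨gau_at hT hu hx, (hu.2 x hx).le⟩) (by positivity)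
      (by linarith) hβ (fun i x hx => D_gau hT hu hx i) a
    have e2 := (e1.congr hS (f' := e.D.Z.D a (u - 1)) fun x hx => by
      refine (dv_sub ((gau_at hT hu hx).mdifferentiableAt (by simp)) mdifferentiableAt_const).trans ?_
      rw [dv_const]
      exact sub_zero _).Dw w (by simpa using hw) x hx
    refine e2.trans ?_
    have : 0 ≤ (C₀ * 2 + 2 / ‖v.Φ y₀‖) * η := by positivity
    linarith [add_mul (cO (k + 1) * 2) (C₀ * 2 + 2 / ‖v.Φ y₀‖) η]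

/-- the field `rig` of `WinStmt` -/
theorem rig : ∀ (e : En3 κ lam ν) (v : e.YC), e.OK → Crit v → (∃ y, v.Φ y ≠ 0) → ∃ η₀ > 0, ∀ k, ∃ C : ℝ,
    ∀ c u s η, η ≤ η₀ → e.cyl.AdmOn c (univ ×ˢ win s) → GauOn e.Z.I u (univ ×ˢ win s) →
    Cl c (fz v) (win s) k η → Cl (e.cyl.act u c) (fz v) (win s) k η →
    ∀ w : List (Option κ), w.length ≤ k + 1 → ∀ x ∈ univ ×ˢ win s, ‖e.D.Z.Dw w (u - 1) x‖ ≤ C * η :=
  fun e v H hv h0 => ⟨1 / 2, by norm_num, fun k =>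
    let ⟨C, _, h⟩ := rigOn e v H hv.1 h0 k; ⟨C, fun c u _ η => h c u _ η isOpen_Ioo⟩⟩

/-! ### separation -/

theorem sm_a {v : e.YC} (hv : e.cyl.Adm (fz v)) (k : κ) : Sm e.Y.I (v.a k) :=
  sm_slice_fst (hv.sa (some k)) 0

theorem sm_P {v : e.YC} (hv : e.cyl.Adm (fz v)) : Sm e.Y.I v.Φ := sm_slice_fst hv.sΦ 0

/-- a solution of the gauge equations is a gauge equivalence -/
theorem eqv_of {v v' : e.YC} {U : e.Y.M → ℂ} (hU : Gau e.Y.I U)
    (hD : ∀ k y, e.D.F.D k U y = mi (v.a k y - v'.a k y) (U y))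
    (hP : ∀ y, v'.Φ y = cs e.m.J (U y) (v.Φ y)) : Eqv v v' := by
  refine ⟨U, hU, Cfg.ext (funext₂ fun i x => ?_) (funext fun x => hP x.1)⟩
  rw [act_a, bt]
  cases i with
  | none =>
    rw [show e.D.Z.D none (fun x => U x.1) x = 0 from congrFun (D_none_fst e.D.F.toPre hU.1) x]
    simp [fz, Nd18.ca]
  | some k =>
    rw [show e.D.Z.D (some k) (fun x => U x.1) x = e.D.F.D k U x.1 from
      congrFun (D_some_fst e.D.F.toPre hU.1 k) x, hD, mi_apply]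
    have h : star (U x.1) * U x.1 = 1 := by
      rw [Complex.star_def, Complex.conj_mul', hU.2]; norm_num
    rw [mul_left_comm, h]
    simp [fz, Nd18.ca]

/-- approximate gauge equivalence -/
def Ap (v v' : e.YC) (η : ℝ) : Prop := ∃ (U : e.Y.M → ℂ) (β : κ → e.Y.M → ℝ), Gau e.Y.I U ∧
  (∀ k y, e.D.F.D k U y = mi (β k y) (U y)) ∧ (∀ k y, |v.a k y - v'.a k y - β k y| ≤ η) ∧
  ∀ y, ‖cs e.m.J (U y) (v.Φ y) - v'.Φ y‖ ≤ η

/-- gauge orbits are closed in `C⁰` -/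
theorem eqv_of_ap {v v' : e.YC} (hv : e.cyl.Adm (fz v)) (hv' : e.cyl.Adm (fz v'))
    (h : ∃ᶠ η in 𝓝[>] 0, Ap v v' η) : Eqv v v' := by
  have := frequently_iff_neBot.1 h
  let 𝒰 := Ultrafilter.of (𝓝[>] (0 : ℝ) ⊓ 𝓟 {η | Ap v v' η})
  have h1 : (𝒰 : Filter ℝ) ≤ 𝓝 0 := (Ultrafilter.of_le _).trans (inf_le_left.trans nhdsWithin_le_nhds)
  have h2 : ∀ᶠ η in (𝒰 : Filter ℝ), Ap v v' η :=
    (Ultrafilter.of_le _).trans inf_le_right (mem_principal_self _)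
  have ex : ∀ η, ∃ (U : e.Y.M → ℂ) (β : κ → e.Y.M → ℝ), Gau e.Y.I U ∧
      (∀ k y, e.D.F.D k U y = mi (β k y) (U y)) ∧ (Ap v v' η →
      (∀ k y, |v.a k y - v'.a k y - β k y| ≤ η) ∧
      ∀ y, ‖cs e.m.J (U y) (v.Φ y) - v'.Φ y‖ ≤ η) := fun η => by
    by_cases hη : Ap v v' η
    · obtain ⟨U, β, a, b, c⟩ := hη
      exact ⟨U, β, a, b, fun _ => c⟩
    · exact ⟨fun _ => 1, 0, ⟨contMDiff_const, by simp⟩, fun k y => by
        rw [Pre.D_def, dv_const]; simp, fun h => absurd h hη⟩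
  choose U β a b d using ex
  obtain ⟨V, v1, v2, v3, v4⟩ := lim_ode (F := e.D.F.toPre) 𝒰 (δ := fun k y => v.a k y - v'.a k y)
    (fun η => (a η).1.mdifferentiable (by simp)) (fun η => (a η).2) b
    (fun k => (sm_a hv k).sub (sm_a hv' k)) fun k => Metric.tendstoUniformly_iff.2 fun ε hε => by
      filter_upwards [h2, h1 (gt_mem_nhds hε)] with η e1 e2 y using ((d η e1).1 k y).trans_lt e2
  refine eqv_of ⟨v1, v2⟩ v3 fun y => (sub_eq_zero.1 (norm_le_zero_iff.1 ?_)).symm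
  exact le_of_tendsto_of_tendsto ((((cont_cs _).tendsto _).comp (v4 y)).sub_const _).norm h1
    (h2.mono fun η e1 => (d η e1).2 y)

/-- two gauges in which one slice is close to `v` and to `v'` -/
theorem ap_of_cl (H : e.OK) {v v' : e.YC} {T' : Set ℝ} {u' : e.Y.M × ℝ → ℂ} {k k' : ℕ} {η t : ℝ}
    (hT : IsOpen T) (hT' : IsOpen T') (ht : t ∈ T) (ht' : t ∈ T')
    (hu : GauOn e.Z.I u (univ ×ˢ T)) (hu' : GauOn e.Z.I u' (univ ×ˢ T'))
    (h : Cl (e.cyl.act u c) (fz v) T k η) (h' : Cl (e.cyl.act u' c) (fz v') T' k' η) :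
    Ap v v' (2 * η) := by
  obtain ⟨g1, g2⟩ := gau_sl hT hu ht
  obtain ⟨g3, g4⟩ := gau_sl hT' hu' ht'
  have s1 : Sm e.Y.I fun y => (Complex.conjCLE : ℂ →L[ℝ] ℂ) (u (y, t)) :=
    (Complex.conjCLE : ℂ →L[ℝ] ℂ).contMDiff.comp g1.1
  refine ⟨fun y => u' (y, t) * (Complex.conjCLE : ℂ →L[ℝ] ℂ) (u (y, t)),
    fun k y => bt e u' (some k) (y, t) - bt e u (some k) (y, t),
    ⟨fun y => Wz78.SA.mul (g3.1 y) (s1 y), fun y => ?_⟩, fun k y => ?_, fun k y => ?_, fun y => ?_⟩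
  · simp [g1.2 y, g3.2 y]
  · refine (Wz78.dv_mul (g3.1 y) (s1 y)).trans ?_
    rw [dv_clm _ (g1.1.mdifferentiableAt (by simp)), ← Pre.D_def, ← Pre.D_def, g2, g4]
    simp only [mi_apply]
    simp; ring
  · have e1 : |c.a (some k) (y, t) - bt e u (some k) (y, t) - v.a k y| ≤ η :=
      (Cl.pt h (x := (y, t)) ⟨trivial, ht⟩).1 _
    have e2 : |c.a (some k) (y, t) - bt e u' (some k) (y, t) - v'.a k y| ≤ η :=
      (Cl.pt h' (x := (y, t)) ⟨trivial, ht'⟩).1 _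
    rw [abs_le] at e1 e2 ⊢
    constructor <;> linarith [e1.1, e1.2, e2.1, e2.2]
  · have e1 : ‖cs e.m.J (u (y, t)) (c.Φ (y, t)) - v.Φ y‖ ≤ η :=
      (Cl.pt h (x := (y, t)) ⟨trivial, ht⟩).2
    have e2 : ‖cs e.m.J (u' (y, t)) (c.Φ (y, t)) - v'.Φ y‖ ≤ η :=
      (Cl.pt h' (x := (y, t)) ⟨trivial, ht'⟩).2
    set z := u' (y, t) * (Complex.conjCLE : ℂ →L[ℝ] ℂ) (u (y, t)) with hz
    have e3 : z * u (y, t) = u' (y, t) := by
      simp [hz, mul_assoc, Complex.conj_mul', g1.2 y]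
    have e4 : ‖z‖ = 1 := by simp [hz, g1.2 y, g3.2 y]
    have e5 := ncs H z (cs e.m.J (u (y, t)) (c.Φ (y, t)) - v.Φ y)
    rw [e4, one_mul, cs_sub_r, norm_sub_rev, cs_cs (Jsq H), e3] at e5
    have e6 := norm_sub_le_norm_sub_add_norm_sub (cs e.m.J z (v.Φ y))
      (cs e.m.J (u' (y, t)) (c.Φ (y, t))) (v'.Φ y)
    linarith

/-- the field `sep` of `WinStmt` -/
theorem sep : ∀ (e : En3 κ lam ν) (g : e.Gen), g.OK → ∃ η > 0, ∀ c s s' o o', |s - s'| ≤ 1 →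
    e.cyl.AdmOn c (univ ×ˢ (win s ∪ win s')) → Nr c (g.pt o) s 1 η → Nr c (g.pt o') s' 1 η →
    o = o' := by
  intro e g G
  have h : ∀ᶠ η in 𝓝[>] (0 : ℝ), ∀ o o', Ap (g.pt o) (g.pt o') η → o = o' :=
    eventually_all.2 fun o => eventually_all.2 fun o' => by
      by_cases h : o = o'
      · exact Eventually.of_forall fun _ _ => h
      · exact (not_frequently.1 fun h' => h (G.inj o o'
          (eqv_of_ap (G.crit o).1 (G.crit o').1 h'))).mono fun η a b => absurd b a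
  obtain ⟨η, h1, h2⟩ := (h.and self_mem_nhdsWithin).exists
  refine ⟨η / 2, half_pos h2, fun c s s' o o' hs _ ⟨u, hu, k⟩ ⟨u', hu', k'⟩ => h1 o o' ?_⟩
  rw [abs_le] at hs
  have := ap_of_cl G.ok (t := (s + s') / 2) isOpen_Ioo isOpen_Ioo
    ⟨by linarith [hs.1, hs.2], by linarith [hs.1, hs.2]⟩
    ⟨by linarith [hs.1, hs.2], by linarith [hs.1, hs.2]⟩ hu hu' k k'
  rwa [mul_div_cancel₀ _ two_ne_zero] at this

end Crest.Agent.X212.Win39
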